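import Vale.Agent.P092.H701.SLn

/-!
P092 (helper303): the chain of length `q` of the group of all `g ∈ SL` which preserve a form of
Witt index at least `q ≥ 2` (symplectic, orthogonal, unitary groups over a local field).
-/

set_option linter.all false

open Matrix Set Topology

namespace Vale.Agent.P092.H303

open Vale.Agent.P092.H701

section group

variable {n : Type*} [Fintype n] [DecidableEq n] {k : Type*} [Field k]

/-- The group of all `g ∈ SL(n, k)` with `g J σ(g)ᵀ = J`. -/
def FormGroup (σ : k →+* k) (J : Matrix n n k) : Subgroup (SpecialLinearGroup n k) where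
  carrier := {g | g.1 * J * (g.1.map σ)ᵀ = J}
  one_mem' := by
    show (1 : Matrix n n k) * J * ((1 : Matrix n n k).map σ)ᵀ = J
    rw [Matrix.map_one σ (map_zero σ) (map_one σ), transpose_one, Matrix.one_mul, Matrix.mul_one]
  mul_mem' := by
    intro g h hg hh
    have hg' : g.1 * J * (g.1.map σ)ᵀ = J := hg
    have hh' : h.1 * J * (h.1.map σ)ᵀ = J := hh
    show (g.1 * h.1) * J * ((g.1 * h.1).map σ)ᵀ = J
    rw [Matrix.map_mul, transpose_mul]
    calc g.1 * h.1 * J * ((h.1.map σ)ᵀ * (g.1.map σ)ᵀ)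
        = g.1 * (h.1 * J * (h.1.map σ)ᵀ) * (g.1.map σ)ᵀ := by simp only [Matrix.mul_assoc]
      _ = J := by rw [hh', hg']
  inv_mem' := by
    intro g hg
    have hg' : g.1 * J * (g.1.map σ)ᵀ = J := hg
    have h1 : (g⁻¹).1 * g.1 = 1 := by
      have := congrArg Subtype.val (inv_mul_cancel g)
      exact this
    have h2 : (g.1.map σ)ᵀ * ((g⁻¹).1.map σ)ᵀ = 1 := by
      rw [← transpose_mul, ← Matrix.map_mul, h1, Matrix.map_one σ (map_zero σ) (map_one σ),
        transpose_one]
    show (g⁻¹).1 * J * ((g⁻¹).1.map σ)ᵀ = J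
    calc (g⁻¹).1 * J * ((g⁻¹).1.map σ)ᵀ
        = (g⁻¹).1 * (g.1 * J * (g.1.map σ)ᵀ) * ((g⁻¹).1.map σ)ᵀ := by rw [hg']
      _ = ((g⁻¹).1 * g.1) * J * ((g.1.map σ)ᵀ * ((g⁻¹).1.map σ)ᵀ) := by
          simp only [Matrix.mul_assoc]
      _ = J := by rw [h1, h2, Matrix.one_mul, Matrix.mul_one]

lemma mem_formGroup {σ : k →+* k} {J : Matrix n n k} {g : SpecialLinearGroup n k} :
    g ∈ FormGroup σ J ↔ g.1 * J * (g.1.map σ)ᵀ = J := Iff.rfl

/-- Product of two transvections. -/
def root2 {a b c d : n} (h : a ≠ b) (h' : c ≠ d) (t s : k) : SpecialLinearGroup n k :=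
  ⟨transvection a b t * transvection c d s, by
    rw [det_mul, det_transvection_of_ne a b h, det_transvection_of_ne c d h', one_mul]⟩

/-- `J` is hyperbolic at the indices `b`, `b'`: row `b` and column `b'`. -/
structure HypAt (J : Matrix n n k) (b b' : n) (ω : k) : Prop where
  row : ∀ y, J b y = if y = b' then ω else 0
  col : ∀ x, J x b' = if x = b then ω else 0

lemma HypAt.mul_left {J : Matrix n n k} {b b' : n} {ω : k} (h : HypAt J b b' ω) (x : n) (t : k) :
    Matrix.single x b t * J = Matrix.single x b' (t * ω) := by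
  ext i j
  by_cases hi : i = x
  · subst hi
    rw [single_mul_apply_same, h.row, single_apply]
    by_cases hj : j = b'
    · subst hj; simp
    · rw [if_neg hj, if_neg (fun hh => hj hh.2.symm), mul_zero]
  · rw [single_mul_apply_of_ne _ _ _ _ _ hi, single_apply, if_neg (fun hh => hi hh.1.symm)]

lemma HypAt.mul_right {J : Matrix n n k} {b b' : n} {ω : k} (h : HypAt J b b' ω) (y : n) (t : k) :
    J * Matrix.single b' y t = Matrix.single b y (ω * t) := by
  ext i j
  by_cases hj : j = y
  · subst hj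
    rw [mul_single_apply_same, h.col, single_apply]
    by_cases hi : i = b
    · subst hi; simp
    · rw [if_neg hi, if_neg (fun hh => hi hh.1.symm), zero_mul]
  · rw [mul_single_apply_of_ne _ _ _ _ _ hj, single_apply, if_neg (fun hh => hj hh.2.symm)]

/-- The root elements of the group of a form. -/
lemma root2_mem {σ : k →+* k} {J : Matrix n n k} {a b a' b' : n} {ωa ωa' ωb ωb' : k}
    (ha : HypAt J a a' ωa) (ha' : HypAt J a' a ωa') (hb : HypAt J b b' ωb)
    (hb' : HypAt J b' b ωb') (hab : a ≠ b) (hab' : b' ≠ a') (h1 : b ≠ b') (h2 : a ≠ a')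
    {t s : k} (e1 : t * ωb + ωa * σ s = 0) (e2 : s * ωa' + ωb' * σ t = 0) :
    root2 hab hab' t s ∈ FormGroup σ J := by
  have hmap : ∀ (x y : n) (u : k), ((Matrix.single x y u).map σ)ᵀ = Matrix.single y x (σ u) := by
    intro x y u
    ext i j
    simp only [transpose_apply, map_apply, single_apply]
    by_cases hh : x = j ∧ y = i
    · rw [if_pos hh, if_pos ⟨hh.2, hh.1⟩]
    · rw [if_neg hh, if_neg (fun h => hh ⟨h.2, h.1⟩), map_zero]
  have hadd : ∀ A B : Matrix n n k, (A + B).map σ = A.map σ + B.map σ := by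
    intro A B; ext i j; simp
  have hg : (root2 hab hab' t s).1 = 1 + Matrix.single a b t + Matrix.single b' a' s := by
    show transvection a b t * transvection b' a' s = _
    rw [transvection, transvection, Matrix.add_mul, Matrix.one_mul, Matrix.mul_add,
      Matrix.mul_one, single_mul_single_of_ne _ _ _ _ h1]
    abel
  have hgt : ((root2 hab hab' t s).1.map σ)ᵀ =
      1 + Matrix.single b a (σ t) + Matrix.single a' b' (σ s) := by
    rw [hg, hadd, hadd, transpose_add, transpose_add, hmap, hmap,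
      Matrix.map_one σ (map_zero σ) (map_one σ), transpose_one]
  rw [mem_formGroup, hgt, hg]
  have e3 : (1 + Matrix.single a b t + Matrix.single b' a' s) * J =
      J + Matrix.single a b' (t * ωb) + Matrix.single b' a (s * ωa') := by
    rw [Matrix.add_mul, Matrix.add_mul, Matrix.one_mul, hb.mul_left, ha'.mul_left]
  rw [e3]
  simp only [Matrix.mul_add, Matrix.add_mul, Matrix.mul_one]
  rw [hb'.mul_right, ha.mul_right, single_mul_single_of_ne _ _ _ _ h1.symm,
    single_mul_single_of_ne _ _ _ _ hab, single_mul_single_of_ne _ _ _ _ hab',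
    single_mul_single_of_ne _ _ _ _ h2]
  have e4 : Matrix.single a b' (t * ωb) + Matrix.single a b' (ωa * σ s) = 0 := by
    rw [← single_add, e1, single_zero]
  have e5 : Matrix.single b' a (s * ωa') + Matrix.single b' a (ωb' * σ t) = 0 := by
    rw [← single_add, e2, single_zero]
  calc J + Matrix.single a b' (t * ωb) + Matrix.single b' a (s * ωa') +
        (Matrix.single b' a (ωb' * σ t) + 0 + 0) +
        (Matrix.single a b' (ωa * σ s) + 0 + 0)
      = J + (Matrix.single a b' (t * ωb) + Matrix.single a b' (ωa * σ s)) +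
        (Matrix.single b' a (s * ωa') + Matrix.single b' a (ωb' * σ t)) := by abel
    _ = J := by rw [e4, e5, add_zero, add_zero]

lemma root2_row_a {a b c d : n} (h : a ≠ b) (h' : c ≠ d) (t s : k) (hac : a ≠ c) (hbc : b ≠ c)
    (x : SpecialLinearGroup n k) : (root2 h h' t s * x).1 a = x.1 a + t • x.1 b := by
  funext e
  show (transvection a b t * transvection c d s * x.1) a e = _
  rw [Matrix.mul_assoc, transvection_mul_apply_same, transvection_mul_apply_of_ne _ _ _ _ hac,
    transvection_mul_apply_of_ne _ _ _ _ hbc]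
  rfl

lemma root2_row_b {a b c d : n} (h : a ≠ b) (h' : c ≠ d) (t s : k) (hbc : b ≠ c)
    (x : SpecialLinearGroup n k) : (root2 h h' t s * x).1 b = x.1 b := by
  funext e
  show (transvection a b t * transvection c d s * x.1) b e = _
  rw [Matrix.mul_assoc, transvection_mul_apply_of_ne _ _ _ _ h.symm,
    transvection_mul_apply_of_ne _ _ _ _ hbc]

lemma diag_comm_transvection (d : n → k) {a b : n} (h : d a = d b) (t : k) :
    diagonal d * transvection a b t = transvection a b t * diagonal d := by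
  ext x y
  rw [diagonal_mul, mul_diagonal]
  simp only [transvection, Matrix.add_apply, Matrix.single_apply, Matrix.one_apply]
  by_cases hxy : x = y
  · subst hxy; ring
  · rw [if_neg hxy, zero_add]
    by_cases hh : a = x ∧ b = y
    · obtain ⟨rfl, rfl⟩ := hh
      simp only [and_self, if_true]
      rw [h, mul_comm]
    · rw [if_neg hh]; ring

end group

section form

variable {ι : Type*} [Fintype ι] [DecidableEq ι] {k : Type*} [Field k]

/-- Index type: `q` hyperbolic pairs and the rest. -/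
abbrev Idx (q : ℕ) (ι : Type*) := (Fin q ⊕ Fin q) ⊕ ι

/-- `q` hyperbolic planes with sign `ε`, and any form `J₀` on the rest. -/
def hyp (q : ℕ) (ε : k) (J₀ : Matrix ι ι k) : Matrix (Idx q ι) (Idx q ι) k :=
  fromBlocks (fromBlocks 0 1 (ε • (1 : Matrix (Fin q) (Fin q) k)) 0) 0 0 J₀

lemma hypAt_l (q : ℕ) (ε : k) (J₀ : Matrix ι ι k) (i : Fin q) :
    HypAt (hyp q ε J₀) (.inl (.inl i)) (.inl (.inr i)) 1 := by
  constructor
  · rintro ((y | y) | y)
    · simp [hyp]
    · simp [hyp, Matrix.one_apply, eq_comm]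
    · simp [hyp]
  · rintro ((y | y) | y)
    · simp [hyp, Matrix.one_apply]
    · simp [hyp]
    · simp [hyp]

lemma hypAt_r (q : ℕ) (ε : k) (J₀ : Matrix ι ι k) (i : Fin q) :
    HypAt (hyp q ε J₀) (.inl (.inr i)) (.inl (.inl i)) ε := by
  constructor
  · rintro ((y | y) | y)
    · simp [hyp, Matrix.one_apply, eq_comm]
    · simp [hyp]
    · simp [hyp]
  · rintro ((y | y) | y)
    · simp [hyp]
    · simp [hyp, Matrix.one_apply]
    · simp [hyp]

/-- diagonal entries of a cocharacter -/
def dgF (q : ℕ) (ι : Type*) (w : k) (l : Fin q → ℤ) : Idx q ι → k :=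
  Sum.elim (Sum.elim (fun i => w ^ l i) (fun i => w ^ (-l i))) (fun _ => 1)

lemma prod_dgF (q : ℕ) {w : k} (hw : w ≠ 0) (l : Fin q → ℤ) : ∏ x, dgF q ι w l x = 1 := by
  rw [Fintype.prod_sum_type, Fintype.prod_sum_type]
  simp only [dgF, Sum.elim_inl, Sum.elim_inr, Finset.prod_const_one, mul_one]
  rw [← Finset.prod_mul_distrib]
  refine Finset.prod_eq_one fun i _ => ?_
  rw [← zpow_add₀ hw, add_neg_cancel, zpow_zero]

/-- the torus -/
def torF (q : ℕ) (ι : Type*) [Fintype ι] [DecidableEq ι] {w : k} (hw : w ≠ 0) (l : Fin q → ℤ) :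
    SpecialLinearGroup (Idx q ι) k :=
  ⟨diagonal (dgF q ι w l), by rw [det_diagonal, prod_dgF q hw]⟩

lemma torF_mem (q : ℕ) (ε : k) (J₀ : Matrix ι ι k) {σ : k →+* k} {w : k} (hw : w ≠ 0)
    (hσ : σ w = w) (l : Fin q → ℤ) : torF q ι hw l ∈ FormGroup σ (hyp q ε J₀) := by
  rw [mem_formGroup]
  have h1 : ((diagonal (dgF q ι w l)).map σ)ᵀ = diagonal (fun x => σ (dgF q ι w l x)) := by
    rw [diagonal_map (map_zero σ), diagonal_transpose]
  show diagonal (dgF q ι w l) * hyp q ε J₀ * ((diagonal (dgF q ι w l)).map σ)ᵀ = _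
  rw [h1]
  ext x y
  rw [mul_diagonal, diagonal_mul]
  rcases x with (x | x) | x <;> rcases y with (y | y) | y
  · simp [hyp]
  · by_cases h : x = y
    · subst h
      simp [hyp, dgF, map_zpow₀, hσ]
      exact mul_inv_cancel₀ (zpow_ne_zero _ hw)
    · simp [hyp, Matrix.one_apply, h]
  · simp [hyp]
  · by_cases h : x = y
    · subst h
      simp [hyp, dgF, map_zpow₀, hσ]
      field_simp
    · simp [hyp, Matrix.one_apply, h]
  · simp [hyp]
  · simp [hyp]
  · simp [hyp]
  · simp [hyp]
  · simp [hyp, dgF]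

lemma torF_comm (q : ℕ) {w : k} (hw : w ≠ 0) (l l' : Fin q → ℤ) :
    Commute (torF q ι hw l) (torF q ι hw l') := by
  apply Subtype.ext
  show diagonal (dgF q ι w l) * diagonal (dgF q ι w l')
    = diagonal (dgF q ι w l') * diagonal (dgF q ι w l)
  rw [diagonal_mul_diagonal, diagonal_mul_diagonal]
  congr 1
  funext a
  exact mul_comm _ _

lemma torF_row (q : ℕ) {w : k} (hw : w ≠ 0) (l : Fin q → ℤ) (y : Idx q ι)
    (x : SpecialLinearGroup (Idx q ι) k) :
    (torF q ι hw l * x).1 y = dgF q ι w l y • x.1 y := by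
  funext a
  show (diagonal (dgF q ι w l) * x.1) y a = _
  rw [diagonal_mul]
  rfl

lemma torF_pow_row (q : ℕ) {w : k} (hw : w ≠ 0) (l : Fin q → ℤ) (y : Idx q ι) (N : ℕ)
    (x : SpecialLinearGroup (Idx q ι) k) :
    (torF q ι hw l ^ N * x).1 y = (dgF q ι w l y) ^ N • x.1 y := by
  induction N generalizing x with
  | zero => simp
  | succ N ih => rw [pow_succ, mul_assoc, ih, torF_row, smul_smul, pow_succ]

lemma torF_root2 (q : ℕ) {w : k} (hw : w ≠ 0) (l : Fin q → ℤ) {a b c d : Idx q ι}
    (h : a ≠ b) (h' : c ≠ d) (e : dgF q ι w l a = dgF q ι w l b)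
    (e' : dgF q ι w l c = dgF q ι w l d) (t s : k) :
    Commute (torF q ι hw l) (root2 h h' t s) := by
  apply Subtype.ext
  show diagonal (dgF q ι w l) * (transvection a b t * transvection c d s)
    = (transvection a b t * transvection c d s) * diagonal (dgF q ι w l)
  rw [← Matrix.mul_assoc, diag_comm_transvection _ e, Matrix.mul_assoc,
    diag_comm_transvection _ e', Matrix.mul_assoc]

end form

section chain

variable {ι : Type*} [Fintype ι] [DecidableEq ι] {k : Type*} [NontriviallyNormedField k]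

/-- first row of the `j`-th root -/
def ra (q : ℕ) (ι : Type*) (j : Fin (q + 2)) : Idx (q + 2) ι :=
  if (j : ℕ) = q + 1 then .inl (.inl ⟨q, by omega⟩) else .inl (.inl j)

/-- second row of the `j`-th root -/
def rb (q : ℕ) (ι : Type*) (j : Fin (q + 2)) : Idx (q + 2) ι :=
  if h : (j : ℕ) = q + 1 then .inl (.inr ⟨q + 1, by omega⟩)
  else .inl (.inl ⟨j + 1, by have := j.2; omega⟩)

/-- opposite index of `ra` -/
def ra' (q : ℕ) (ι : Type*) (j : Fin (q + 2)) : Idx (q + 2) ι :=
  if (j : ℕ) = q + 1 then .inl (.inr ⟨q, by omega⟩) else .inl (.inr j)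

/-- opposite index of `rb` -/
def rb' (q : ℕ) (ι : Type*) (j : Fin (q + 2)) : Idx (q + 2) ι :=
  if h : (j : ℕ) = q + 1 then .inl (.inl ⟨q + 1, by omega⟩)
  else .inl (.inr ⟨j + 1, by have := j.2; omega⟩)

/-- the cocharacters -/
def lam (q : ℕ) (j i : Fin (q + 2)) : ℤ :=
  if (j : ℕ) < q then (if i = j then 1 else 0)
  else if (i : ℕ) = q then 1
  else if (i : ℕ) = q + 1 then (if (j : ℕ) = q then -1 else 1) else 0

lemma ra_ne_rb (q : ℕ) (j : Fin (q + 2)) : ra q ι j ≠ rb q ι j := by
  unfold ra rb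
  split_ifs with h
  · simp
  · simp [Fin.ext_iff]

lemma ra_ne_rb' (q : ℕ) (j : Fin (q + 2)) : ra q ι j ≠ rb' q ι j := by
  unfold ra rb'
  split_ifs with h
  · simp
  · simp

lemma rb_ne_rb' (q : ℕ) (j : Fin (q + 2)) : rb q ι j ≠ rb' q ι j := by
  unfold rb rb'
  split_ifs with h <;> simp

lemma ra_ne_ra' (q : ℕ) (j : Fin (q + 2)) : ra q ι j ≠ ra' q ι j := by
  unfold ra ra'
  split_ifs with h <;> simp

lemma ra'_ne_rb' (q : ℕ) (j : Fin (q + 2)) : ra' q ι j ≠ rb' q ι j := by
  unfold ra' rb'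
  split_ifs with h
  · simp
  · simp [Fin.ext_iff]

lemma rb_ne_ra' (q : ℕ) (j : Fin (q + 2)) : rb q ι j ≠ ra' q ι j := by
  unfold ra' rb
  split_ifs with h
  · simp [Fin.ext_iff]
  · simp

/-- value of the cocharacter on the rows -/
lemma dg_ra (q : ℕ) {w : k} (hw : w ≠ 0) (l : Fin (q + 2) → ℤ) (j : Fin (q + 2)) :
    dgF (q + 2) ι w l (ra' q ι j) = (dgF (q + 2) ι w l (ra q ι j))⁻¹ := by
  unfold ra ra'
  split_ifs with h <;> simp [dgF]

lemma dg_rb (q : ℕ) {w : k} (hw : w ≠ 0) (l : Fin (q + 2) → ℤ) (j : Fin (q + 2)) :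
    dgF (q + 2) ι w l (rb' q ι j) = (dgF (q + 2) ι w l (rb q ι j))⁻¹ := by
  unfold rb rb'
  split_ifs with h <;> simp [dgF]

lemma dg_eq (q : ℕ) (w : k) {i j : Fin (q + 2)} (hij : i < j) :
    dgF (q + 2) ι w (lam q i) (ra q ι j) = dgF (q + 2) ι w (lam q i) (rb q ι j) := by
  have h1 : (i : ℕ) < j := hij
  have h2 := j.2
  unfold ra rb
  split_ifs with h
  · simp only [dgF, Sum.elim_inl, Sum.elim_inr, lam]
    congr 1
    by_cases h3 : (i : ℕ) < q
    · simp [h3, Fin.ext_iff]; omega
    · have h4 : (i : ℕ) = q := by omega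
      simp [h4]
  · simp only [dgF, Sum.elim_inl, Sum.elim_inr, lam]
    congr 1
    have h3 : (i : ℕ) < q := by omega
    simp [h3, Fin.ext_iff]; omega

lemma dg_ratio (q : ℕ) (w : k) (j : Fin (q + 2)) :
    ∃ e : ℤ, dgF (q + 2) ι w (lam q j) (ra q ι j) = w ∧
      dgF (q + 2) ι w (lam q j) (rb q ι j) = w ^ (-e) ∧ 0 ≤ e := by
  have h2 := j.2
  by_cases h : (j : ℕ) = q + 1
  · refine ⟨1, ?_, ?_, by norm_num⟩
    · simp [ra, h, dgF, lam]
    · simp [rb, h, dgF, lam]
  · by_cases h3 : (j : ℕ) = q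
    · refine ⟨1, ?_, ?_, by norm_num⟩
      · simp [ra, h3, dgF, lam]
      · simp [rb, h3, dgF, lam]
    · have h4 : (j : ℕ) < q := by omega
      refine ⟨0, ?_, ?_, by norm_num⟩
      · simp [ra, h, dgF, lam, h4]
      · simp [rb, h, dgF, lam, h4, Fin.ext_iff]

/-- sign of the second entry of the root elements -/
def sg (q : ℕ) (ε : k) (j : Fin (q + 2)) : k := if (j : ℕ) = q + 1 then -ε else -1

variable {σ : k →+* k} {ε : k} {J₀ : Matrix ι ι k}

lemma up_mem (q : ℕ) (hσ : ∀ x, σ (σ x) = x) (hε : ε * ε = 1) (hσε : σ ε = ε)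
    (j : Fin (q + 2)) (t : k) :
    root2 (ra_ne_rb (ι := ι) q j) (ra'_ne_rb' q j).symm t (sg q ε j * σ t) ∈
      FormGroup σ (hyp (q + 2) ε J₀) := by
  by_cases h : (j : ℕ) = q + 1
  · refine root2_mem (ωa := 1) (ωa' := ε) (ωb := ε) (ωb' := 1) ?_ ?_ ?_ ?_ _ _
      (rb_ne_rb' q j) (ra_ne_ra' q j) ?_ ?_
    · simp only [ra, ra', h, if_true]; exact hypAt_l _ _ _ _
    · simp only [ra, ra', h, if_true]; exact hypAt_r _ _ _ _
    · simp only [rb, rb', h, dif_pos]; exact hypAt_r _ _ _ _
    · simp only [rb, rb', h, dif_pos]; exact hypAt_l _ _ _ _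
    · simp only [sg, h, if_true, map_mul, map_neg, hσ, hσε]; ring
    · simp only [sg, h, if_true]; linear_combination (-σ t) * hε
  · refine root2_mem (ωa := 1) (ωa' := ε) (ωb := 1) (ωb' := ε) ?_ ?_ ?_ ?_ _ _
      (rb_ne_rb' q j) (ra_ne_ra' q j) ?_ ?_
    · simp only [ra, ra', h, if_false]; exact hypAt_l _ _ _ _
    · simp only [ra, ra', h, if_false]; exact hypAt_r _ _ _ _
    · simp only [rb, rb', h, dif_neg, not_false_eq_true]; exact hypAt_l _ _ _ _
    · simp only [rb, rb', h, dif_neg, not_false_eq_true]; exact hypAt_r _ _ _ _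
    · simp only [sg, h, if_false, map_mul, map_neg, map_one, hσ]; ring
    · simp only [sg, h, if_false]; ring

lemma lo_mem (q : ℕ) (hσ : ∀ x, σ (σ x) = x) (hε : ε * ε = 1) (hσε : σ ε = ε)
    (j : Fin (q + 2)) (t : k) :
    root2 (ra_ne_rb (ι := ι) q j).symm (ra'_ne_rb' q j) t (sg q ε j * σ t) ∈
      FormGroup σ (hyp (q + 2) ε J₀) := by
  by_cases h : (j : ℕ) = q + 1
  · refine root2_mem (ωa := ε) (ωa' := 1) (ωb := 1) (ωb' := ε) ?_ ?_ ?_ ?_ _ _
      (ra_ne_ra' q j) (rb_ne_rb' q j) ?_ ?_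
    · simp only [rb, rb', h, dif_pos]; exact hypAt_r _ _ _ _
    · simp only [rb, rb', h, dif_pos]; exact hypAt_l _ _ _ _
    · simp only [ra, ra', h, if_true]; exact hypAt_l _ _ _ _
    · simp only [ra, ra', h, if_true]; exact hypAt_r _ _ _ _
    · simp only [sg, h, if_true, map_mul, map_neg, hσ, hσε]; linear_combination (-t) * hε
    · simp only [sg, h, if_true]; ring
  · refine root2_mem (ωa := 1) (ωa' := ε) (ωb := 1) (ωb' := ε) ?_ ?_ ?_ ?_ _ _
      (ra_ne_ra' q j) (rb_ne_rb' q j) ?_ ?_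
    · simp only [rb, rb', h, dif_neg, not_false_eq_true]; exact hypAt_l _ _ _ _
    · simp only [rb, rb', h, dif_neg, not_false_eq_true]; exact hypAt_r _ _ _ _
    · simp only [ra, ra', h, if_false]; exact hypAt_l _ _ _ _
    · simp only [ra, ra', h, if_false]; exact hypAt_r _ _ _ _
    · simp only [sg, h, if_false, map_mul, map_neg, map_one, hσ]; ring
    · simp only [sg, h, if_false]; ring

lemma continuous_root2 {n : Type*} [Fintype n] [DecidableEq n] {a b c d : n} (h : a ≠ b)
    (h' : c ≠ d) {f g : k → k} (hf : Continuous f) (hg : Continuous g) :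
    Continuous fun t => root2 h h' (f t) (g t) := by
  apply Continuous.subtype_mk
  apply Continuous.matrix_mul
  · apply continuous_matrix
    intro x y
    simp only [transvection, Matrix.add_apply, Matrix.single_apply]
    split_ifs <;> fun_prop
  · apply continuous_matrix
    intro x y
    simp only [transvection, Matrix.add_apply, Matrix.single_apply]
    split_ifs <;> fun_prop

lemma frow_pos {n : Type*} [Fintype n] [DecidableEq n] (x : SpecialLinearGroup n k) (a : n) :
    0 < ‖x.1 a‖ := by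
  rw [norm_pos_iff]
  intro h
  have : x.1.det = 0 := det_eq_zero_of_row_eq_zero a (fun j => congrFun h j)
  rw [x.2] at this
  exact one_ne_zero this

lemma continuous_frow {n : Type*} [Fintype n] [DecidableEq n] {S : Subgroup (SpecialLinearGroup n k)}
    (a : n) : Continuous fun x : S => x.1.1 a := by
  have h : Continuous fun x : S => x.1.1 := continuous_subtype_val.comp continuous_subtype_val
  exact (continuous_apply a).comp h

/-- The row pair of the `j`-th root. -/
def formRow (q : ℕ) (J₀ : Matrix ι ι k) (hσc : Continuous σ) (hσ : ∀ x, σ (σ x) = x)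
    (hε : ε * ε = 1) (hσε : σ ε = ε) (j : Fin (q + 2)) :
    RowPair (FormGroup σ (hyp (q + 2) ε J₀)) k (Idx (q + 2) ι → k) where
  ρ₁ x := x.1.1 (ra q ι j)
  ρ₂ x := x.1.1 (rb q ι j)
  cont₁ := continuous_frow _
  cont₂ := continuous_frow _
  ne x := lt_max_of_lt_left (frow_pos x.1 _)
  up t := ⟨_, up_mem q hσ hε hσε j t⟩
  lo t := ⟨_, lo_mem q hσ hε hσε j t⟩
  cont_up := (continuous_root2 _ _ continuous_id (by fun_prop)).subtype_mk _
  cont_lo := (continuous_root2 _ _ continuous_id (by fun_prop)).subtype_mk _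
  up₁ t x := root2_row_a (ra_ne_rb q j) (ra'_ne_rb' q j).symm t (sg q ε j * σ t)
    (ra_ne_rb' q j) (rb_ne_rb' q j) x.1
  up₂ t x := root2_row_b (ra_ne_rb q j) (ra'_ne_rb' q j).symm t (sg q ε j * σ t)
    (rb_ne_rb' q j) x.1
  lo₁ t x := root2_row_b (ra_ne_rb q j).symm (ra'_ne_rb' q j) t (sg q ε j * σ t)
    (ra_ne_ra' q j) x.1
  lo₂ t x := root2_row_a (ra_ne_rb q j).symm (ra'_ne_rb' q j) t (sg q ε j * σ t)
    (rb_ne_ra' q j) (ra_ne_ra' q j) x.1

/-- **The group of a form of Witt index at least `q + 2` has a chain of length `q + 2`.** -/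
noncomputable def formChain (q : ℕ) (J₀ : Matrix ι ι k) [ProperSpace k] (hσc : Continuous σ)
    (hσ : ∀ x, σ (σ x) = x) (hε : ε * ε = 1) (hσε : σ ε = ε) {w : k} (hw1 : 1 < ‖w‖)
    (hσw : σ w = w)
    [MeasurableSpace (FormGroup σ (hyp (q + 2) ε J₀))]
    [OpensMeasurableSpace (FormGroup σ (hyp (q + 2) ε J₀))] :
    HChain (FormGroup σ (hyp (q + 2) ε J₀)) (q + 2) :=
  have hw : w ≠ 0 := norm_pos_iff.mp (lt_trans one_pos hw1)
  { b := fun j N => ⟨torF (q + 2) ι hw (lam q j), torF_mem (q + 2) ε J₀ hw hσw _⟩ ^ N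
    K := fun j => (formRow q J₀ hσc hσ hε hσε j).K
    compact := fun j => RowPair.isCompact_K _
    comm_b := fun i j _ N M => by
      apply Subtype.ext
      exact (torF_comm (q + 2) hw (lam q i) (lam q j)).pow_pow N M
    comm_K := by
      intro i j hij N x hx
      have e := dg_eq (ι := ι) q w hij
      have e' : dgF (q + 2) ι w (lam q i) (ra' q ι j) = dgF (q + 2) ι w (lam q i) (rb' q ι j) := by
        rw [dg_ra q hw, dg_rb q hw, e]
      rcases hx with ⟨t, -, rfl⟩ | ⟨t, -, rfl⟩
      · have h : Commute (⟨torF (q + 2) ι hw (lam q i), torF_mem (q + 2) ε J₀ hw hσw _⟩ :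
            FormGroup σ (hyp (q + 2) ε J₀)) ((formRow q J₀ hσc hσ hε hσε j).up t) := by
          apply Subtype.ext
          exact torF_root2 (q + 2) hw (lam q i) (ra_ne_rb q j) (ra'_ne_rb' q j).symm e e'.symm
            t (sg q ε j * σ t)
        exact h.pow_left N
      · have h : Commute (⟨torF (q + 2) ι hw (lam q i), torF_mem (q + 2) ε J₀ hw hσw _⟩ :
            FormGroup σ (hyp (q + 2) ε J₀)) ((formRow q J₀ hσc hσ hε hσε j).lo t) := by
          apply Subtype.ext
          exact torF_root2 (q + 2) hw (lam q i) (ra_ne_rb q j).symm (ra'_ne_rb' q j) e.symm e'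
            t (sg q ε j * σ t)
        exact h.pow_left N
    pp := by
      intro j p
      obtain ⟨e, e1, e2, he⟩ := dg_ratio (ι := ι) q w j
      refine RowPair.pp (formRow q J₀ hσc hσ hε hσε j)
        (fun N => ⟨torF (q + 2) ι hw (lam q j), torF_mem (q + 2) ε J₀ hw hσw _⟩ ^ N)
        (fun N => w ^ N) (fun N => (w ^ (-e)) ^ N)
        (fun N x => ?_) (fun N x => ?_) ?_ ?_ p
      · have := torF_pow_row (q + 2) hw (lam q j) (ra q ι j) N x.1
        rw [e1] at this
        exact this
      · have := torF_pow_row (q + 2) hw (lam q j) (rb q ι j) N x.1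
        rw [e2] at this
        exact this
      · intro N
        exact pow_ne_zero _ hw
      · intro C
        obtain ⟨N₀, hN₀⟩ := pow_unbounded_of_one_lt C hw1
        refine ⟨N₀, fun N hN => ?_⟩
        rw [norm_pow, norm_pow, norm_zpow]
        have h1 : C ≤ ‖w‖ ^ N := hN₀.le.trans (pow_le_pow_right₀ hw1.le hN)
        have h2 : (‖w‖ ^ (-e)) ^ N ≤ 1 :=
          pow_le_one₀ (by positivity) (zpow_le_one_of_nonpos₀ hw1.le (by omega))
        have h4 : (0 : ℝ) ≤ (‖w‖ ^ (-e)) ^ N := by positivity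
        have h5 : (0 : ℝ) ≤ ‖w‖ ^ N := by positivity
        calc C * (‖w‖ ^ (-e)) ^ N ≤ ‖w‖ ^ N * (‖w‖ ^ (-e)) ^ N := mul_le_mul_of_nonneg_right h1 h4
          _ ≤ ‖w‖ ^ N * 1 := mul_le_mul_of_nonneg_left h2 h5
          _ = _ := mul_one _ }

end chain

section top

variable {n : Type*} [Fintype n] [DecidableEq n] {k : Type*} [NontriviallyNormedField k]

lemma isClosedEmbedding_val :
    IsClosedEmbedding (Subtype.val : SpecialLinearGroup n k → Matrix n n k) := by
  refine ⟨IsEmbedding.subtypeVal, ?_⟩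
  have h : Set.range (Subtype.val : SpecialLinearGroup n k → Matrix n n k) =
      {A : Matrix n n k | A.det = 1} := Subtype.range_coe
  rw [h]
  exact isClosed_eq (continuous_id.matrix_det) continuous_const

lemma isClosed_formGroup {σ : k →+* k} (hσc : Continuous σ) (J : Matrix n n k) :
    IsClosed (FormGroup σ J : Set (SpecialLinearGroup n k)) := by
  have h1 : Continuous fun g : SpecialLinearGroup n k => g.1 := continuous_subtype_val
  have h2 : Continuous fun g : SpecialLinearGroup n k => (g.1.map σ)ᵀ := by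
    apply Continuous.matrix_transpose
    apply continuous_matrix
    intro i j
    exact hσc.comp (h1.matrix_elem i j)
  exact isClosed_eq ((h1.matrix_mul continuous_const).matrix_mul h2) continuous_const

theorem locallyCompact_SL [ProperSpace k] : LocallyCompactSpace (SpecialLinearGroup n k) := by
  haveI : LocallyCompactSpace (Matrix n n k) :=
    inferInstanceAs (LocallyCompactSpace (n → n → k))
  exact isClosedEmbedding_val.locallyCompactSpace

theorem secondCountable_SL [ProperSpace k] :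
    SecondCountableTopology (SpecialLinearGroup n k) := by
  haveI : SecondCountableTopology (Matrix n n k) :=
    inferInstanceAs (SecondCountableTopology (n → n → k))
  exact isClosedEmbedding_val.isEmbedding.secondCountableTopology

theorem locallyCompact_formGroup [ProperSpace k] {σ : k →+* k} (hσc : Continuous σ)
    (J : Matrix n n k) : LocallyCompactSpace (FormGroup σ J) := by
  haveI := locallyCompact_SL (n := n) (k := k)
  exact (isClosed_formGroup hσc J).isClosedEmbedding_subtypeVal.locallyCompactSpace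

theorem secondCountable_formGroup [ProperSpace k] {σ : k →+* k} (J : Matrix n n k) :
    SecondCountableTopology (FormGroup σ J) := by
  haveI := secondCountable_SL (n := n) (k := k)
  exact IsEmbedding.subtypeVal.secondCountableTopology

end top

section instances

variable {ι : Type*} [Fintype ι] [DecidableEq ι]

/-- Symmetric real forms with Witt index at least `q + 2` (`SO(p, q + 2)`, `p ≥ q + 2`). -/
noncomputable def orthChain (q : ℕ) (J₀ : Matrix ι ι ℝ)
    [MeasurableSpace (FormGroup (RingHom.id ℝ) (hyp (q + 2) 1 J₀))]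
    [OpensMeasurableSpace (FormGroup (RingHom.id ℝ) (hyp (q + 2) 1 J₀))] :
    HChain (FormGroup (RingHom.id ℝ) (hyp (q + 2) 1 J₀)) (q + 2) :=
  formChain (w := 2) q J₀ continuous_id (fun _ => rfl) (one_mul 1) rfl (by norm_num) rfl

/-- Symplectic real groups of rank at least `q + 2`. -/
noncomputable def sympChain (q : ℕ) (J₀ : Matrix ι ι ℝ)
    [MeasurableSpace (FormGroup (RingHom.id ℝ) (hyp (q + 2) (-1) J₀))]
    [OpensMeasurableSpace (FormGroup (RingHom.id ℝ) (hyp (q + 2) (-1) J₀))] :
    HChain (FormGroup (RingHom.id ℝ) (hyp (q + 2) (-1) J₀)) (q + 2) :=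
  formChain (w := 2) q J₀ continuous_id (fun _ => rfl) (by norm_num) rfl (by norm_num) rfl

/-- Hermitian complex forms with Witt index at least `q + 2` (`SU(p, q + 2)`, `p ≥ q + 2`). -/
noncomputable def unitChain (q : ℕ) (J₀ : Matrix ι ι ℂ)
    [MeasurableSpace (FormGroup (starRingEnd ℂ) (hyp (q + 2) 1 J₀))]
    [OpensMeasurableSpace (FormGroup (starRingEnd ℂ) (hyp (q + 2) 1 J₀))] :
    HChain (FormGroup (starRingEnd ℂ) (hyp (q + 2) 1 J₀)) (q + 2) :=
  formChain (w := 2) q J₀ Complex.continuous_conj Complex.conj_conj (one_mul 1) (map_one _)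
    (by norm_num) (by simp [Complex.conj_ofNat])

end instances

end Vale.Agent.P092.H303
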